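import Vale.Agent.P062.Fam
import Vale.Agent.P062.AC0
import Vale.Agent.P062.AC1
import Vale.Agent.P062.AC2
import Vale.Agent.P062.AC3
import Vale.Agent.P062.AC4
import Vale.Agent.P062.AC5
import Vale.Agent.P062.AC6
import Vale.Agent.P062.AC7
import Vale.Agent.P062.AC8
import Vale.Agent.P062.AC9
import Vale.Agent.P062.AC10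
import Vale.Agent.P062.AC11
import Vale.Agent.P062.AC12
import Vale.Agent.P062.AC13
import Vale.Agent.P062.AC14
import Vale.Agent.P062.AC15
import Vale.Agent.P062.AC16
import Vale.Agent.P062.AC17
import Vale.Agent.P062.AC18
import Vale.Agent.P062.AC19
import Vale.Agent.P062.AC20
import Vale.Agent.P062.AC21
import Vale.Agent.P062.AC22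
import Vale.Agent.P062.AC23
import Vale.Agent.P062.AC24
import Vale.Agent.P062.AC25
import Vale.Agent.P062.AC26
import Vale.Agent.P062.AC27
import Vale.Agent.P062.AC28
import Vale.Agent.P062.AC29
import Vale.Agent.P062.AC30

namespace Vale.Agent.P062

theorem Av0 : Tab.Valid At0 :=
  Tab.valid_of_check (env := Ae0) trivial Ac0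

theorem Av1 : Tab.Valid At1 :=
  Tab.valid_of_check (env := Ae1) trivial Ac1

theorem Av2 : Tab.Valid At2 :=
  Tab.valid_of_check (env := Ae2) trivial Ac2

theorem Av3 : Tab.Valid At3 :=
  Tab.valid_of_check (env := Ae3) trivial Ac3

theorem Av4 : Tab.Valid At4 :=
  Tab.valid_of_check (env := Ae4) trivial Ac4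

theorem Av5 : Tab.Valid At5 :=
  Tab.valid_of_check (env := Ae5) trivial Ac5

theorem Av6 : Tab.Valid At6 :=
  Tab.valid_of_check (env := Ae6) trivial Ac6

theorem Av7 : Tab.Valid At7 :=
  Tab.valid_of_check (env := Ae7) trivial Ac7

theorem Av8 : Tab.Valid At8 :=
  Tab.valid_of_check (env := Ae8) ⟨⟨⟨⟨⟨Av0, trivial⟩, trivial⟩, ⟨⟨Av4, trivial⟩, trivial⟩⟩, ⟨⟨⟨Av2, trivial⟩, trivial⟩, ⟨⟨Av6, trivial⟩, trivial⟩⟩⟩, ⟨⟨⟨⟨Av1, trivial⟩, trivial⟩, ⟨⟨Av5, trivial⟩, trivial⟩⟩, ⟨⟨⟨Av3, trivial⟩, trivial⟩, ⟨⟨Av7, trivial⟩, trivial⟩⟩⟩⟩ Ac8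

theorem Av9 : Tab.Valid At9 :=
  Tab.valid_of_check (env := Ae9) ⟨⟨⟨⟨⟨Av0, trivial⟩, trivial⟩, ⟨⟨Av4, trivial⟩, trivial⟩⟩, ⟨⟨⟨Av2, trivial⟩, trivial⟩, ⟨⟨Av6, trivial⟩, trivial⟩⟩⟩, ⟨⟨⟨⟨Av1, trivial⟩, trivial⟩, ⟨⟨Av5, trivial⟩, trivial⟩⟩, ⟨⟨⟨Av3, trivial⟩, trivial⟩, ⟨⟨Av7, trivial⟩, trivial⟩⟩⟩⟩ Ac9

theorem Av10 : Tab.Valid At10 :=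
  Tab.valid_of_check (env := Ae10) ⟨⟨⟨⟨⟨Av0, trivial⟩, trivial⟩, ⟨⟨Av4, trivial⟩, trivial⟩⟩, ⟨⟨⟨Av2, trivial⟩, trivial⟩, ⟨⟨Av6, trivial⟩, trivial⟩⟩⟩, ⟨⟨⟨⟨Av1, trivial⟩, trivial⟩, ⟨⟨Av5, trivial⟩, trivial⟩⟩, ⟨⟨⟨Av3, trivial⟩, trivial⟩, ⟨⟨Av7, trivial⟩, trivial⟩⟩⟩⟩ Ac10

theorem Av11 : Tab.Valid At11 :=
  Tab.valid_of_check (env := Ae11) ⟨⟨⟨⟨⟨Av0, trivial⟩, trivial⟩, ⟨⟨Av4, trivial⟩, trivial⟩⟩, ⟨⟨⟨Av2, trivial⟩, trivial⟩, ⟨⟨Av6, trivial⟩, trivial⟩⟩⟩, ⟨⟨⟨⟨Av1, trivial⟩, trivial⟩, ⟨⟨Av5, trivial⟩, trivial⟩⟩, ⟨⟨⟨Av3, trivial⟩, trivial⟩, ⟨⟨Av7, trivial⟩, trivial⟩⟩⟩⟩ Ac11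

theorem Av12 : Tab.Valid At12 :=
  Tab.valid_of_check (env := Ae12) ⟨⟨⟨⟨⟨Av0, trivial⟩, trivial⟩, ⟨⟨Av4, trivial⟩, trivial⟩⟩, ⟨⟨⟨Av2, trivial⟩, trivial⟩, ⟨⟨Av6, trivial⟩, trivial⟩⟩⟩, ⟨⟨⟨⟨Av1, trivial⟩, trivial⟩, ⟨⟨Av5, trivial⟩, trivial⟩⟩, ⟨⟨⟨Av3, trivial⟩, trivial⟩, ⟨⟨Av7, trivial⟩, trivial⟩⟩⟩⟩ Ac12

theorem Av13 : Tab.Valid At13 :=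
  Tab.valid_of_check (env := Ae13) ⟨⟨⟨⟨⟨Av0, trivial⟩, trivial⟩, ⟨⟨Av4, trivial⟩, trivial⟩⟩, ⟨⟨⟨Av2, trivial⟩, trivial⟩, ⟨⟨Av6, trivial⟩, trivial⟩⟩⟩, ⟨⟨⟨⟨Av1, trivial⟩, trivial⟩, ⟨⟨Av5, trivial⟩, trivial⟩⟩, ⟨⟨⟨Av3, trivial⟩, trivial⟩, ⟨⟨Av7, trivial⟩, trivial⟩⟩⟩⟩ Ac13

theorem Av14 : Tab.Valid At14 :=
  Tab.valid_of_check (env := Ae14) ⟨⟨⟨⟨⟨Av0, trivial⟩, trivial⟩, ⟨⟨Av4, trivial⟩, trivial⟩⟩, ⟨⟨⟨Av2, trivial⟩, trivial⟩, ⟨⟨Av6, trivial⟩, trivial⟩⟩⟩, ⟨⟨⟨⟨Av1, trivial⟩, trivial⟩, ⟨⟨Av5, trivial⟩, trivial⟩⟩, ⟨⟨⟨Av3, trivial⟩, trivial⟩, ⟨⟨Av7, trivial⟩, trivial⟩⟩⟩⟩ Ac14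

theorem Av15 : Tab.Valid At15 :=
  Tab.valid_of_check (env := Ae15) ⟨⟨⟨⟨⟨Av0, trivial⟩, ⟨Av8, trivial⟩⟩, ⟨⟨Av4, trivial⟩, ⟨Av12, trivial⟩⟩⟩, ⟨⟨⟨Av2, trivial⟩, ⟨Av10, trivial⟩⟩, ⟨⟨Av6, trivial⟩, ⟨Av14, trivial⟩⟩⟩⟩, ⟨⟨⟨⟨Av1, trivial⟩, ⟨Av9, trivial⟩⟩, ⟨⟨Av5, trivial⟩, ⟨Av13, trivial⟩⟩⟩, ⟨⟨⟨Av3, trivial⟩, ⟨Av11, trivial⟩⟩, ⟨⟨Av7, trivial⟩, trivial⟩⟩⟩⟩ Ac15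

theorem Av16 : Tab.Valid At16 :=
  Tab.valid_of_check (env := Ae16) ⟨⟨⟨⟨⟨Av0, trivial⟩, ⟨Av8, trivial⟩⟩, ⟨⟨Av4, trivial⟩, ⟨Av12, trivial⟩⟩⟩, ⟨⟨⟨Av2, trivial⟩, ⟨Av10, trivial⟩⟩, ⟨⟨Av6, trivial⟩, ⟨Av14, trivial⟩⟩⟩⟩, ⟨⟨⟨⟨Av1, trivial⟩, ⟨Av9, trivial⟩⟩, ⟨⟨Av5, trivial⟩, ⟨Av13, trivial⟩⟩⟩, ⟨⟨⟨Av3, trivial⟩, ⟨Av11, trivial⟩⟩, ⟨⟨Av7, trivial⟩, trivial⟩⟩⟩⟩ Ac16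

theorem Av17 : Tab.Valid At17 :=
  Tab.valid_of_check (env := Ae17) ⟨⟨⟨⟨⟨Av0, trivial⟩, ⟨Av8, trivial⟩⟩, ⟨⟨Av4, trivial⟩, ⟨Av12, trivial⟩⟩⟩, ⟨⟨⟨Av2, trivial⟩, ⟨Av10, trivial⟩⟩, ⟨⟨Av6, trivial⟩, ⟨Av14, trivial⟩⟩⟩⟩, ⟨⟨⟨⟨Av1, trivial⟩, ⟨Av9, trivial⟩⟩, ⟨⟨Av5, trivial⟩, ⟨Av13, trivial⟩⟩⟩, ⟨⟨⟨Av3, trivial⟩, ⟨Av11, trivial⟩⟩, ⟨⟨Av7, trivial⟩, trivial⟩⟩⟩⟩ Ac17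

theorem Av18 : Tab.Valid At18 :=
  Tab.valid_of_check (env := Ae18) ⟨⟨⟨⟨⟨Av0, trivial⟩, ⟨Av8, trivial⟩⟩, ⟨⟨Av4, trivial⟩, ⟨Av12, trivial⟩⟩⟩, ⟨⟨⟨Av2, trivial⟩, ⟨Av10, trivial⟩⟩, ⟨⟨Av6, trivial⟩, ⟨Av14, trivial⟩⟩⟩⟩, ⟨⟨⟨⟨Av1, trivial⟩, ⟨Av9, trivial⟩⟩, ⟨⟨Av5, trivial⟩, ⟨Av13, trivial⟩⟩⟩, ⟨⟨⟨Av3, trivial⟩, ⟨Av11, trivial⟩⟩, ⟨⟨Av7, trivial⟩, trivial⟩⟩⟩⟩ Ac18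

theorem Av19 : Tab.Valid At19 :=
  Tab.valid_of_check (env := Ae19) ⟨⟨⟨⟨⟨Av0, Av16⟩, ⟨Av8, trivial⟩⟩, ⟨⟨Av4, trivial⟩, ⟨Av12, trivial⟩⟩⟩, ⟨⟨⟨Av2, Av18⟩, ⟨Av10, trivial⟩⟩, ⟨⟨Av6, trivial⟩, ⟨Av14, trivial⟩⟩⟩⟩, ⟨⟨⟨⟨Av1, Av17⟩, ⟨Av9, trivial⟩⟩, ⟨⟨Av5, trivial⟩, ⟨Av13, trivial⟩⟩⟩, ⟨⟨⟨Av3, trivial⟩, ⟨Av11, trivial⟩⟩, ⟨⟨Av7, trivial⟩, ⟨Av15, trivial⟩⟩⟩⟩⟩ Ac19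

theorem Av20 : Tab.Valid At20 :=
  Tab.valid_of_check (env := Ae20) ⟨⟨⟨⟨⟨Av0, Av16⟩, ⟨Av8, trivial⟩⟩, ⟨⟨Av4, trivial⟩, ⟨Av12, trivial⟩⟩⟩, ⟨⟨⟨Av2, Av18⟩, ⟨Av10, trivial⟩⟩, ⟨⟨Av6, trivial⟩, ⟨Av14, trivial⟩⟩⟩⟩, ⟨⟨⟨⟨Av1, Av17⟩, ⟨Av9, trivial⟩⟩, ⟨⟨Av5, trivial⟩, ⟨Av13, trivial⟩⟩⟩, ⟨⟨⟨Av3, trivial⟩, ⟨Av11, trivial⟩⟩, ⟨⟨Av7, trivial⟩, ⟨Av15, trivial⟩⟩⟩⟩⟩ Ac20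

theorem Av21 : Tab.Valid At21 :=
  Tab.valid_of_check (env := Ae21) ⟨⟨⟨⟨⟨Av0, Av16⟩, ⟨Av8, trivial⟩⟩, ⟨⟨Av4, Av20⟩, ⟨Av12, trivial⟩⟩⟩, ⟨⟨⟨Av2, Av18⟩, ⟨Av10, trivial⟩⟩, ⟨⟨Av6, trivial⟩, ⟨Av14, trivial⟩⟩⟩⟩, ⟨⟨⟨⟨Av1, Av17⟩, ⟨Av9, trivial⟩⟩, ⟨⟨Av5, trivial⟩, ⟨Av13, trivial⟩⟩⟩, ⟨⟨⟨Av3, Av19⟩, ⟨Av11, trivial⟩⟩, ⟨⟨Av7, trivial⟩, ⟨Av15, trivial⟩⟩⟩⟩⟩ Ac21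

theorem Av22 : Tab.Valid At22 :=
  Tab.valid_of_check (env := Ae22) ⟨⟨⟨⟨⟨Av0, Av16⟩, ⟨Av8, trivial⟩⟩, ⟨⟨Av4, Av20⟩, ⟨Av12, trivial⟩⟩⟩, ⟨⟨⟨Av2, Av18⟩, ⟨Av10, trivial⟩⟩, ⟨⟨Av6, trivial⟩, ⟨Av14, trivial⟩⟩⟩⟩, ⟨⟨⟨⟨Av1, Av17⟩, ⟨Av9, trivial⟩⟩, ⟨⟨Av5, Av21⟩, ⟨Av13, trivial⟩⟩⟩, ⟨⟨⟨Av3, Av19⟩, ⟨Av11, trivial⟩⟩, ⟨⟨Av7, trivial⟩, ⟨Av15, trivial⟩⟩⟩⟩⟩ Ac22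

theorem Av23 : Tab.Valid At23 :=
  Tab.valid_of_check (env := Ae23) ⟨⟨⟨⟨⟨Av0, Av16⟩, ⟨Av8, trivial⟩⟩, ⟨⟨Av4, Av20⟩, ⟨Av12, trivial⟩⟩⟩, ⟨⟨⟨Av2, Av18⟩, ⟨Av10, trivial⟩⟩, ⟨⟨Av6, Av22⟩, ⟨Av14, trivial⟩⟩⟩⟩, ⟨⟨⟨⟨Av1, Av17⟩, ⟨Av9, trivial⟩⟩, ⟨⟨Av5, Av21⟩, ⟨Av13, trivial⟩⟩⟩, ⟨⟨⟨Av3, Av19⟩, ⟨Av11, trivial⟩⟩, ⟨⟨Av7, trivial⟩, ⟨Av15, trivial⟩⟩⟩⟩⟩ Ac23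

theorem Av24 : Tab.Valid At24 :=
  Tab.valid_of_check (env := Ae24) ⟨⟨⟨⟨⟨Av0, Av16⟩, ⟨Av8, trivial⟩⟩, ⟨⟨Av4, Av20⟩, ⟨Av12, trivial⟩⟩⟩, ⟨⟨⟨Av2, Av18⟩, ⟨Av10, trivial⟩⟩, ⟨⟨Av6, Av22⟩, ⟨Av14, trivial⟩⟩⟩⟩, ⟨⟨⟨⟨Av1, Av17⟩, ⟨Av9, trivial⟩⟩, ⟨⟨Av5, Av21⟩, ⟨Av13, trivial⟩⟩⟩, ⟨⟨⟨Av3, Av19⟩, ⟨Av11, trivial⟩⟩, ⟨⟨Av7, Av23⟩, ⟨Av15, trivial⟩⟩⟩⟩⟩ Ac24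

theorem Av25 : Tab.Valid At25 :=
  Tab.valid_of_check (env := Ae25) ⟨⟨⟨⟨⟨Av0, Av16⟩, ⟨Av8, Av24⟩⟩, ⟨⟨Av4, Av20⟩, ⟨Av12, trivial⟩⟩⟩, ⟨⟨⟨Av2, Av18⟩, ⟨Av10, trivial⟩⟩, ⟨⟨Av6, Av22⟩, ⟨Av14, trivial⟩⟩⟩⟩, ⟨⟨⟨⟨Av1, Av17⟩, ⟨Av9, trivial⟩⟩, ⟨⟨Av5, Av21⟩, ⟨Av13, trivial⟩⟩⟩, ⟨⟨⟨Av3, Av19⟩, ⟨Av11, trivial⟩⟩, ⟨⟨Av7, Av23⟩, ⟨Av15, trivial⟩⟩⟩⟩⟩ Ac25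

theorem Av26 : Tab.Valid At26 :=
  Tab.valid_of_check (env := Ae26) ⟨⟨⟨⟨⟨Av0, Av16⟩, ⟨Av8, Av24⟩⟩, ⟨⟨Av4, Av20⟩, ⟨Av12, trivial⟩⟩⟩, ⟨⟨⟨Av2, Av18⟩, ⟨Av10, trivial⟩⟩, ⟨⟨Av6, Av22⟩, ⟨Av14, trivial⟩⟩⟩⟩, ⟨⟨⟨⟨Av1, Av17⟩, ⟨Av9, Av25⟩⟩, ⟨⟨Av5, Av21⟩, ⟨Av13, trivial⟩⟩⟩, ⟨⟨⟨Av3, Av19⟩, ⟨Av11, trivial⟩⟩, ⟨⟨Av7, Av23⟩, ⟨Av15, trivial⟩⟩⟩⟩⟩ Ac26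

theorem Av27 : Tab.Valid At27 :=
  Tab.valid_of_check (env := Ae27) ⟨⟨⟨⟨⟨Av0, Av16⟩, ⟨Av8, Av24⟩⟩, ⟨⟨Av4, Av20⟩, ⟨Av12, trivial⟩⟩⟩, ⟨⟨⟨Av2, Av18⟩, ⟨Av10, Av26⟩⟩, ⟨⟨Av6, Av22⟩, ⟨Av14, trivial⟩⟩⟩⟩, ⟨⟨⟨⟨Av1, Av17⟩, ⟨Av9, Av25⟩⟩, ⟨⟨Av5, Av21⟩, ⟨Av13, trivial⟩⟩⟩, ⟨⟨⟨Av3, Av19⟩, ⟨Av11, trivial⟩⟩, ⟨⟨Av7, Av23⟩, ⟨Av15, trivial⟩⟩⟩⟩⟩ Ac27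

theorem Av28 : Tab.Valid At28 :=
  Tab.valid_of_check (env := Ae28) ⟨⟨⟨⟨⟨Av0, Av16⟩, ⟨Av8, Av24⟩⟩, ⟨⟨Av4, Av20⟩, ⟨Av12, trivial⟩⟩⟩, ⟨⟨⟨Av2, Av18⟩, ⟨Av10, Av26⟩⟩, ⟨⟨Av6, Av22⟩, ⟨Av14, trivial⟩⟩⟩⟩, ⟨⟨⟨⟨Av1, Av17⟩, ⟨Av9, Av25⟩⟩, ⟨⟨Av5, Av21⟩, ⟨Av13, trivial⟩⟩⟩, ⟨⟨⟨Av3, Av19⟩, ⟨Av11, Av27⟩⟩, ⟨⟨Av7, Av23⟩, ⟨Av15, trivial⟩⟩⟩⟩⟩ Ac28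

theorem Av29 : Tab.Valid At29 :=
  Tab.valid_of_check (env := Ae29) ⟨⟨⟨⟨⟨Av0, Av16⟩, ⟨Av8, Av24⟩⟩, ⟨⟨Av4, Av20⟩, ⟨Av12, Av28⟩⟩⟩, ⟨⟨⟨Av2, Av18⟩, ⟨Av10, Av26⟩⟩, ⟨⟨Av6, Av22⟩, ⟨Av14, trivial⟩⟩⟩⟩, ⟨⟨⟨⟨Av1, Av17⟩, ⟨Av9, Av25⟩⟩, ⟨⟨Av5, Av21⟩, ⟨Av13, trivial⟩⟩⟩, ⟨⟨⟨Av3, Av19⟩, ⟨Av11, Av27⟩⟩, ⟨⟨Av7, Av23⟩, ⟨Av15, trivial⟩⟩⟩⟩⟩ Ac29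

theorem Av30 : Tab.Valid At30 :=
  Tab.valid_of_check (env := Ae30) ⟨⟨⟨⟨⟨Av0, Av16⟩, ⟨Av8, Av24⟩⟩, ⟨⟨Av4, Av20⟩, ⟨Av12, Av28⟩⟩⟩, ⟨⟨⟨Av2, Av18⟩, ⟨Av10, Av26⟩⟩, ⟨⟨Av6, Av22⟩, ⟨Av14, trivial⟩⟩⟩⟩, ⟨⟨⟨⟨Av1, Av17⟩, ⟨Av9, Av25⟩⟩, ⟨⟨Av5, Av21⟩, ⟨Av13, Av29⟩⟩⟩, ⟨⟨⟨Av3, Av19⟩, ⟨Av11, Av27⟩⟩, ⟨⟨Av7, Av23⟩, ⟨Av15, trivial⟩⟩⟩⟩⟩ Ac30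

theorem Awin : Win 33 ∅ ∅ := win_of_card Av30

end Vale.Agent.P062
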