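import Vale.Agent.P062.Comp

namespace Vale.Agent.P062

set_option maxRecDepth 100000 in
noncomputable def At27 : Tab :=
 (Tab.node  (Tab.leaf (nat_lit 25) (nat_lit 0x500000000000040000000000000000000000000000000000000000000000000000) (nat_lit 0x700002780001fe0007ff8001ff8001fff000ffc0007ff0003ff7001fffc00fffe007fff803fff801fffe00fff8000ffc0007fe00024100) (nat_lit 0x1a20901de2c000000de2d503b2aa91db100324e2478d3a8033a6f2406a4402713988922629c1a99003235641ca2880339dd11044740270a28ba287a01a250c82975501062ee4dcd3a809da3d1aa6a65513b7200649c4779d6900673ba485040804e20b1765dc40345079393522020c90482975541cbb8801917726e69d4019d1e9393522013890407d28fcd104802f16d10480cf16094a76cd105800306d1a780f716d104804f16d104800f16d104801aaed1a780e71601e069cd104800306000000f716d104807716d105803716d105801aae000000e71601e076cd104800b56d105800b56d104807c16d10580d816a91db1480d4880192731d869f4019d388ba2eba01388fc6816e92f0b84801917723e5d74019cba8ee3442013868c781a6d3b0d2680191df1a26884019cee807cced9a20b00060c0a1cd38000000ae2da20900ce2da209002e2c000001ce2c0280ed9a20900ce2da209004e2c0000008e2c000000762c0280ed80000000e2c000001f62da20900f62c000000762c0280ed9a20b0001acd4))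
 (Tab.leaf (nat_lit 25) (nat_lit 0x400000000000400000000000000000000000000000000000000000000000000000000000000000) (nat_lit 0x3ff4001ffe000fff003fffe01fffe00ffff007fffc03ffff01ffff80ffdfc07fcf803ff2801fff0007fe0007ff80007f800027800001c000000000000000000000) (nat_lit 0x4080c0018340d1c07b8b000000278b000000078b0000000d5740d1c0738b00f04de00000001836882407b8b0000003b8b4080c01b8b4080c00d57688240738b00f047e00000005ab4080c005ab0000003e0b4080c06c0b2f0bbc9dc6a6400c8d591e34ea00ce6a4a81d95009c3b64d1340aa49a8400c9518ed3b2a00cea84902389009c4d64891e2a3c8e9400c921935471200ce90403e68fc8101800306050e9bcd1048047160000001d5e8101800f16810180f50e000000271601908fcd1048057160000001d5e0000000306d104801586d10480e71601908fc00000000d6000000d816d104806f16a62665539342801929b23c8da4019d34920471201389ac6a1a91548ed8801927326a8e24019d209503b2a013876cc123d947905c80192d31da7654019d50807cd378000000060c0a1d1f90347008e2c000000d6ac0000001e2c000001ea1d0203004e2c032137902030001ad38))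
 )

end Vale.Agent.P062
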