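import Vale.Agent.P062.Comp

namespace Vale.Agent.P062

set_option maxRecDepth 100000 in
noncomputable def At28 : Tab :=
 (Tab.node  (Tab.leaf (nat_lit 31) (nat_lit 0x400000000000100000000000000000000000000000000000000000000000000000000000000000) (nat_lit 0x7ff4003fff807fffe03ffffc1ffffe0fffff07ffff83ffff81ffffe0ffdff87ffff83ff7fe1ffffe0fffff07ffff81ffff00fffe000ff80007fc0000e000000000) (nat_lit 0x79ae0000007f9ed1048011b60000003086d10480d90e000000590e019082cd1048005b600000004a6d1048001bed1048006c6d104801ebe00000000a6d1048003d6d104800ac6d1048021aed10480388ed1048001ae000000635e0000004e4600000030860000005d5ea7a6ad4dd350801926b2d282d4019d5096b41a20138a94761d9d00d1546489056a0e820400c92190340c200ce90402e08fcd10480235ed10480050ed104803066000000354e00f09bcd10480350ed104807c260000003c2605809c4000000035e000000650e083882cd1048001d600000002d600000001de0000004e46d10480e50e000000ec260000000a86d104803d5e0000005d5e01e082c0000001eb6d104803586810180030600000034260000006b5600f09bc810180030681a380f716810180771600000037160000001aae81a380e71601e09bc000000655e8d234d53133280192692388db4019d1b94e4d0a0138a6c90238900d14d66091eca3c82e400c9698ed3b2a00c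ea8402e09bc0000002d1ed104800716d10480661e04088fcd104800eb6d10480055e00000024268d234d53133280192692388db4019d1b94e4d0a0138a6c90238900d14d66091eca3c82e400c9698ed3b2a00cea8402e09bc000000dd0603b88fc0000000f860000004426000000dd060000002d1e00f08fc0e789c40000000cc6d1048004c6d1048000de0000007e9e000000650e000000590ed1048012aed104801cbed104802886000000354e9023894d11b4801926b1a669c4019d1f94f3aea01387649023894d11b4801926b2d282e4019d1f8ed3b320138a84b420953b4ecc80192a11d875d4019d4f807cd1e9a209000a1c097d378000000da1da20900110da209002a9da209006a1c0d0d3880ffd058000001aa1da20901ca1c000000610c000000b21c0281059a20900210d06))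
 (Tab.leaf (nat_lit 31) (nat_lit 0x100000000000040000000000000000000000000000000000000000000000000000) (nat_lit 0x3800007fc0003fe000fffe007fffc07ffff83ffffc1ffffe0ffdff87ffff83ff7fe1ffffe0ffffe07ffff83ffffc1ffffe0fffff07fffe00fffa007ff40) (nat_lit 0x34412013918000003943b441203b09b4412002a18000000f57b441201757807820b3441200029b441201fa7a068e01b57b441600757b4412006abb4412002e7a068e01f6bb441201d09b469e00557a04060354180a01a70000000d61b4412009099d06794b62d9a0064684751a0500673a62e0b76804e16f1dc68840344d18882222761431003228647cbae803397500b81a7344120374180ee1db34412003e19d06794b62d9a0064684751a0500673a62e0b76804e16f1dc68840344d18882222761431003228647cbae803397500b81a73441200b4780000001c5800000198781021db34416000c1b441200d09b441201ad5803c1a734416000c1b469e03dc5b441601dc5b441200dc5b4412006abb469e039c580781a700000003adb44120195780000001578000000fcfb441203741b441200b47803c1db04381a934412000b580000000f5b4412001298000001643b44120194380000004ab80000003ef8000000a21b441200d539dc6884d03402006468c9b9a7900673b62e4b9e804e23d1dc6884d03402006468c50943100673b647cba8804e17514050751f2ea200645d48f173d00672e601f33b20000000287025f34e68824036870000000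4430000000aa70000001a87034335203ff41600000003e3000000056300000000df0000003bd76882406a87000000728700000018430000002c8700a0416000000026368824000ef00000010d7000000036300000002db6882403fcf00000008db00000018430000006c870000002c8700c84166882402eaf68824027230000001c472e4b829a65c2400c8d18a1287a00ce5d4519459009c2f2478baa80689771e07615073ad2006477c819d4900673ba01703b60000001a87000000183300000002870000000bbb007834e00000011af0000003e136882401e1302c035200000000d70000006e1341d040a4482b400c92190340c200ce90401568fc000000dc26681a014e0d3e80191d91dc6884019cd18ba2eba013869c68970928ca2c80191771745d74019cd38d52ef201385e4761d6541ceb480191df2706a64019cee8bc2ef201386ac04506a468970928ca2c80191771745d74019cd38d52ef201385e483a08148905680192432726a44019d20804ecd49a20901680d0741029120ad0032486350d488033a412a476c40271398d334faa89d9d00323b201064e2050d47e3c0ec29d8759400c8ef9033a9200ce774781d8541ceb480191df2067524019cee81bd8ed9a20900c6bc000000610da20900ca1c2c190580000003d7c00000001bc00000003ac000000210d06))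
 )

end Vale.Agent.P062
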