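import Vale.Agent.P062.Comp

namespace Vale.Agent.P062

set_option maxRecDepth 100000 in
noncomputable def At30 : Tab :=
 (Tab.leaf (nat_lit 33) (nat_lit 0) (nat_lit 0x7fffc03fffe07ffffc3ffffe1fffff0fffff87ffffc3ffffe1fffff0fffff87ffffc3ffffe1fffff0fffff87ffffc3ffffe1fffff0fffff07ffff80ffff807fff0) (nat_lit 0x3469a0012fa068a0051fa04060091fb469a01e1fa068a0099fb441200d1fa040601a9fb469e00f1fa040600527a068a00f11afe8dd51d40f20064b3ca6a055006759a3aceac804e29d1d468e4b92e2a0064694a71d5900673ae01634d66882c02e236882c01c3f68d3c0363f68d34031a36882c02a2340d1403fbb40d1401fd30000000b836882407007538eac9a468d400c9359503ae2761a5900324da478d288033a6f1745ce40270d38b92e2a01a269402c675c000000717ed1a7800646d104804f46000000097e0000007346d1a6807706d1a680297e000000f7060000001446d1a680e706066e8ecd1a6802b46d1a6804b4681a28038460cc48e481a280197ed1a680047e101c81cd1048008b6000000147e81a380247ed10480787e000000267ed105803c7e81a3806a7ed1a680347e0000003c46c1a3d147504e80192d32a282c4019d6a8eb3afa0138a84761a5d2e4b9880191a52a075f4019ceb8058d379a34f00b88da34f0070fda20b00d8fda34f00a88da20900c68c000000feeda20900793c0000007f4da209009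68da20900568c000000708c0cdd1e9034700293da2090008fc00000032fc138d0590345001f8c00000003dc0000001f8da34f00097d034700116d02030003dd02030001dd020300116da20b00097d034500018c00000001dc000000018c000000095c000000116da34f0048fda2090028fc000000c48c000000f0fc00000008fda2090032fd034700b88d02030038fc000000568c000000968c000000793c000000393d034700a28c000000c68d034700a88d020300d8fd03470070fda20900708c0780ec9020300213d02030078fc00000020fd03450068fc0e31058000000097da34f00415d034500115c000000115da20b00415da34d00415c000000117c000000017da20900415c000000515d020300117d034700117da20b00015d020300115d020300017d034700017d020300015d034500415da34d00017da20900017c000000415d034700415d020300415d034500015c000000015d04))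


end Vale.Agent.P062
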