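namespace Vale.Agent.P062

/-! The computational part of the certificate checker (no imports). -/

def bit (x : Nat) : Nat := Nat.shiftLeft (nat_lit 1) x

/-- The eight orientations, packed with 128 bits each. -/
def shapes : Nat := nat_lit 1339385798899641531493507506548197947608480050198026946763469993377958479810386882937386236880522910492545342910340873588463658841576071755762423650491297808999760059344536107879212266968884712911731910739382132467882175372609810723396096448972409233931817547210882510385108055987852690429668231217167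

def poison : Nat := nat_lit 278469275977917188637766821636980671685377716506870112950390168328813181592326500641230029987632531724770648777685205524334027387779262573135538410627576549575927409323746640019706676772864

def allBits : Nat := nat_lit 278469275977917188637766821636980671685377716506870112950390168328813181592326500641230029987632531724770648777685205524334027387779262573135538410627576549575927409323746640019706676772863

def shape (o : Nat) : Nat :=
  Nat.land (Nat.shiftRight shapes (Nat.shiftLeft o (nat_lit 7)))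
    (nat_lit 340282366920938463463374607431768211455)

/-- A table of cards: depth, core, support, and the code of its proof. -/
inductive Tab : Type
  | nil : Tab
  | leaf (n c s code : Nat) : Tab
  | node (l r : Tab) : Tab

noncomputable section

def trc (f : Bool) (a u : Nat) : Nat :=
  @Bool.rec (fun _ => Nat)
    (@Bool.rec (fun _ => Nat) (nat_lit 25) (Nat.sub (Nat.add a u) (nat_lit 32))
      (Nat.ble (nat_lit 32) (Nat.add a u)))
    (@Bool.rec (fun _ => Nat) (nat_lit 25) (Nat.sub a (Nat.add (nat_lit 32) u))
      (Nat.ble (Nat.add (nat_lit 32) u) a)) f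

def tr2 (u v : Nat) : Nat :=
  @Bool.rec (fun _ => Nat) (nat_lit 626)
    (@Bool.rec (fun _ => Nat) (nat_lit 626) (Nat.add (Nat.mul v (nat_lit 25)) u)
      (Nat.ble v (nat_lit 24))) (Nat.ble u (nat_lit 24))

def tr (sw fx fy : Bool) (a b x y : Nat) : Nat :=
  @Bool.rec (fun _ => Nat) (tr2 (trc fx a x) (trc fy b y)) (tr2 (trc fx a y) (trc fy b x)) sw

def colStep (g : Nat → Nat → Nat) (row y x ih : Nat) : Nat :=
  @Bool.rec (fun _ => Nat) (Nat.lor ih (bit (g x y))) ih
    (Nat.beq (Nat.land (Nat.shiftRight row x) (nat_lit 1)) (nat_lit 0))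

def cols (g : Nat → Nat → Nat) (row y n : Nat) : Nat :=
  Nat.rec (nat_lit 0) (fun x ih => colStep g row y x ih) n

def rowStep (g : Nat → Nat → Nat) (y ih row : Nat) : Nat :=
  @Bool.rec (fun _ => Nat) (Nat.lor ih (cols g row y (nat_lit 25))) ih (Nat.beq row (nat_lit 0))

def rows (g : Nat → Nat → Nat) (m n : Nat) : Nat :=
  Nat.rec (nat_lit 0) (fun y ih => rowStep g y ih
    (Nat.land (Nat.shiftRight m (Nat.mul y (nat_lit 25))) (nat_lit 33554431))) n

def mp (g : Nat → Nat → Nat) (m : Nat) : Nat :=
  @Bool.rec (fun _ => Nat) poison (rows g m (nat_lit 25))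
    (Nat.beq (Nat.shiftRight m (nat_lit 625)) (nat_lit 0))

def Tab.get (t : Tab) (k : Nat → Nat → Nat → Nat) : Nat → Nat :=
  Tab.rec (fun _ => poison) (fun n c s _ _ => k n c s)
    (fun _ _ l r i => @Bool.rec (fun _ => Nat) (r (Nat.shiftRight i (nat_lit 1)))
      (l (Nat.shiftRight i (nat_lit 1))) (Nat.beq (Nat.land i (nat_lit 1)) (nat_lit 0))) t

def edge2 (m p f e : Nat) : Nat :=
  @Bool.rec (fun _ => Nat) poison
    (@Bool.rec (fun _ => Nat) poison
      (@Bool.rec (fun _ => Nat) poison
        (@Bool.rec (fun _ => Nat) poison (Nat.lor e (bit f))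
          (Nat.beq (Nat.land e (Nat.lor m (bit f))) e))
        (Nat.ble f (nat_lit 624)))
      (Nat.ble (Nat.mod p (nat_lit 25)) (nat_lit 20)))
    (Nat.ble p (nat_lit 524))

def edge1 (m o p f : Nat) : Nat := edge2 m p f (Nat.shiftLeft (shape o) p)

def edge0 (c m : Nat) : Nat :=
  edge1 m (Nat.land (Nat.shiftRight c (nat_lit 2)) (nat_lit 7))
    (Nat.land (Nat.shiftRight c (nat_lit 5)) (nat_lit 1023)) (Nat.shiftRight c (nat_lit 15))

def edgeS (code m : Nat) : Nat := edge0 (Nat.land code (nat_lit 33554431)) m

def useCard (m d n c s : Nat) : Nat :=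
  @Bool.rec (fun _ => Nat) poison
    (@Bool.rec (fun _ => Nat) poison s (Nat.beq (Nat.land c m) c)) (Nat.ble n d)

def useMap1 (m d n c s : Nat) : Nat :=
  @Bool.rec (fun _ => Nat) poison (useCard m d n c s) (Nat.ble c allBits)

def useMap (g : Nat → Nat → Nat) (m d n c s : Nat) : Nat := useMap1 m d n (mp g c) (mp g s)

def ref0 (env : Tab) (c m d : Nat) : Nat :=
  env.get (@Bool.rec (fun _ => Nat → Nat → Nat → Nat)
    (useMap (tr (Nat.beq (Nat.land c (nat_lit 8388608)) (nat_lit 8388608))
      (Nat.beq (Nat.land c (nat_lit 16777216)) (nat_lit 16777216))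
      (Nat.beq (Nat.land c (nat_lit 33554432)) (nat_lit 33554432))
      (Nat.land (Nat.shiftRight c (nat_lit 26)) (nat_lit 127)) (Nat.shiftRight c (nat_lit 33))) m d)
    (useCard m d) (Nat.beq (Nat.land c (nat_lit 4194304)) (nat_lit 0)))
    (Nat.land (Nat.shiftRight c (nat_lit 2)) (nat_lit 1048575))

def refS (env : Tab) (code m d : Nat) : Nat :=
  ref0 env (Nat.land code (nat_lit 1099511627775)) m d

def sub1 (rec : Nat → Nat → Nat → Nat → Nat → Nat) (b code m d : Nat) : Nat :=
  Nat.lor (rec code (Nat.lor m b) (Nat.sub d (nat_lit 1)) allBits (nat_lit 0)) b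

def subS (rec : Nat → Nat → Nat → Nat → Nat → Nat) (x code m d : Nat) : Nat :=
  @Bool.rec (fun _ => Nat) poison (sub1 rec (bit x) code m d) (Nat.ble x (nat_lit 624))

def nxt (rec : Nat → Nat → Nat → Nat → Nat → Nat) (rest m d I U s : Nat) : Nat :=
  rec rest m d (Nat.land I s) (Nat.lor U s)

def st2 (rec : Nat → Nat → Nat → Nat → Nat → Nat) (x len body m d I U : Nat) : Nat :=
  nxt rec (Nat.shiftRight body len) m d I U
    (subS rec x (Nat.land body (Nat.sub (bit len) (nat_lit 1))) m d)

def st23 (env : Tab) (rec : Nat → Nat → Nat → Nat → Nat → Nat) (code m d I U : Nat) : Nat :=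
  @Bool.rec (fun _ => Nat)
    (nxt rec (Nat.shiftRight code (nat_lit 40)) m d I U (refS env code m d))
    (st2 rec (Nat.land (Nat.shiftRight code (nat_lit 2)) (nat_lit 1023))
      (Nat.land (Nat.shiftRight code (nat_lit 12)) (nat_lit 65535))
      (Nat.shiftRight code (nat_lit 28)) m d I U)
    (Nat.beq (Nat.land code (nat_lit 1)) (nat_lit 0))

def st123 (env : Tab) (rec : Nat → Nat → Nat → Nat → Nat → Nat) (code m d I U : Nat) : Nat :=
  @Bool.rec (fun _ => Nat) (st23 env rec code m d I U)
    (nxt rec (Nat.shiftRight code (nat_lit 25)) m d I U (edgeS code m))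
    (Nat.beq (Nat.land code (nat_lit 2)) (nat_lit 0))

def famStep (env : Tab) (rec : Nat → Nat → Nat → Nat → Nat → Nat) (code m d I U : Nat) : Nat :=
  @Bool.rec (fun _ => Nat)
    (@Bool.rec (fun _ => Nat) poison (st123 env rec code m d I U) (Nat.ble (nat_lit 1) d))
    (@Bool.rec (fun _ => Nat) poison U (Nat.beq (Nat.land I m) I))
    (Nat.beq code (nat_lit 0))

def fam (env : Tab) (fuel : Nat) : Nat → Nat → Nat → Nat → Nat → Nat :=
  Nat.rec (fun _ _ _ _ _ => poison) (fun _ ih => famStep env ih) fuel

def leaf1 (s r : Nat) : Bool := Nat.beq (Nat.land r s) r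

def leafOk (env : Tab) (n c s code : Nat) : Bool :=
  @Bool.rec (fun _ => Bool) false
    (@Bool.rec (fun _ => Bool) false
      (leaf1 s (subS (fam env (nat_lit 100000)) (Nat.land code (nat_lit 1023))
        (Nat.shiftRight code (nat_lit 10)) c n))
      (Nat.ble s allBits)) (Nat.ble (nat_lit 1) n)

def Tab.check (env : Tab) (t : Tab) : Bool :=
  Tab.rec true (fun n c s code => leafOk env n c s code)
    (fun _ _ l r => @Bool.rec (fun _ => Bool) false r l) t

end

end Vale.Agent.P062
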