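import Vale.Agent.P062.Bd.Card
import Vale.Agent.P062.EC0
import Vale.Agent.P062.EC1
import Vale.Agent.P062.EC2
import Vale.Agent.P062.EC3
import Vale.Agent.P062.EC4
import Vale.Agent.P062.EC5
import Vale.Agent.P062.EC6
import Vale.Agent.P062.EC7
import Vale.Agent.P062.EC8
import Vale.Agent.P062.EC9
import Vale.Agent.P062.EC10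
import Vale.Agent.P062.EC11
import Vale.Agent.P062.EC12
import Vale.Agent.P062.EC13
import Vale.Agent.P062.EC14
import Vale.Agent.P062.EC15
import Vale.Agent.P062.EC16
import Vale.Agent.P062.EC17

namespace Vale.Agent.P062.Bd

theorem Ev0 : Valid Et0 :=
  valid_of_check (env := Ee0) trivial Ec0

theorem Ev1 : Valid Et1 :=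
  valid_of_check (env := Ee1) trivial Ec1

theorem Ev2 : Valid Et2 :=
  valid_of_check (env := Ee2) trivial Ec2

theorem Ev3 : Valid Et3 :=
  valid_of_check (env := Ee3) trivial Ec3

theorem Ev4 : Valid Et4 :=
  valid_of_check (env := Ee4) ⟨⟨⟨⟨⟨Ev0, trivial⟩, trivial⟩, trivial⟩, ⟨⟨⟨Ev2, trivial⟩, trivial⟩, trivial⟩⟩, ⟨⟨⟨⟨Ev1, trivial⟩, trivial⟩, trivial⟩, ⟨⟨⟨Ev3, trivial⟩, trivial⟩, trivial⟩⟩⟩ Ec4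

theorem Ev5 : Valid Et5 :=
  valid_of_check (env := Ee5) ⟨⟨⟨⟨⟨Ev0, trivial⟩, trivial⟩, trivial⟩, ⟨⟨⟨Ev2, trivial⟩, trivial⟩, trivial⟩⟩, ⟨⟨⟨⟨Ev1, trivial⟩, trivial⟩, trivial⟩, ⟨⟨⟨Ev3, trivial⟩, trivial⟩, trivial⟩⟩⟩ Ec5

theorem Ev6 : Valid Et6 :=
  valid_of_check (env := Ee6) ⟨⟨⟨⟨⟨Ev0, trivial⟩, trivial⟩, trivial⟩, ⟨⟨⟨Ev2, trivial⟩, trivial⟩, trivial⟩⟩, ⟨⟨⟨⟨Ev1, trivial⟩, trivial⟩, trivial⟩, ⟨⟨⟨Ev3, trivial⟩, trivial⟩, trivial⟩⟩⟩ Ec6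

theorem Ev7 : Valid Et7 :=
  valid_of_check (env := Ee7) ⟨⟨⟨⟨⟨Ev0, trivial⟩, trivial⟩, trivial⟩, ⟨⟨⟨Ev2, trivial⟩, trivial⟩, trivial⟩⟩, ⟨⟨⟨⟨Ev1, trivial⟩, trivial⟩, trivial⟩, ⟨⟨⟨Ev3, trivial⟩, trivial⟩, trivial⟩⟩⟩ Ec7

theorem Ev8 : Valid Et8 :=
  valid_of_check (env := Ee8) ⟨⟨⟨⟨⟨Ev0, trivial⟩, trivial⟩, ⟨⟨Ev4, trivial⟩, trivial⟩⟩, ⟨⟨⟨Ev2, trivial⟩, trivial⟩, ⟨⟨Ev6, trivial⟩, trivial⟩⟩⟩, ⟨⟨⟨⟨Ev1, trivial⟩, trivial⟩, ⟨⟨Ev5, trivial⟩, trivial⟩⟩, ⟨⟨⟨Ev3, trivial⟩, trivial⟩, ⟨⟨Ev7, trivial⟩, trivial⟩⟩⟩⟩ Ec8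

theorem Ev9 : Valid Et9 :=
  valid_of_check (env := Ee9) ⟨⟨⟨⟨⟨Ev0, trivial⟩, trivial⟩, ⟨⟨Ev4, trivial⟩, trivial⟩⟩, ⟨⟨⟨Ev2, trivial⟩, trivial⟩, ⟨⟨Ev6, trivial⟩, trivial⟩⟩⟩, ⟨⟨⟨⟨Ev1, trivial⟩, trivial⟩, ⟨⟨Ev5, trivial⟩, trivial⟩⟩, ⟨⟨⟨Ev3, trivial⟩, trivial⟩, ⟨⟨Ev7, trivial⟩, trivial⟩⟩⟩⟩ Ec9

theorem Ev10 : Valid Et10 :=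
  valid_of_check (env := Ee10) ⟨⟨⟨⟨⟨Ev0, trivial⟩, ⟨Ev8, trivial⟩⟩, ⟨⟨Ev4, trivial⟩, trivial⟩⟩, ⟨⟨⟨Ev2, trivial⟩, trivial⟩, ⟨⟨Ev6, trivial⟩, trivial⟩⟩⟩, ⟨⟨⟨⟨Ev1, trivial⟩, ⟨Ev9, trivial⟩⟩, ⟨⟨Ev5, trivial⟩, trivial⟩⟩, ⟨⟨⟨Ev3, trivial⟩, trivial⟩, ⟨⟨Ev7, trivial⟩, trivial⟩⟩⟩⟩ Ec10

theorem Ev11 : Valid Et11 :=
  valid_of_check (env := Ee11) ⟨⟨⟨⟨⟨Ev0, trivial⟩, ⟨Ev8, trivial⟩⟩, ⟨⟨Ev4, trivial⟩, trivial⟩⟩, ⟨⟨⟨Ev2, trivial⟩, ⟨Ev10, trivial⟩⟩, ⟨⟨Ev6, trivial⟩, trivial⟩⟩⟩, ⟨⟨⟨⟨Ev1, trivial⟩, ⟨Ev9, trivial⟩⟩, ⟨⟨Ev5, trivial⟩, trivial⟩⟩, ⟨⟨⟨Ev3, trivial⟩, trivial⟩, ⟨⟨Ev7, trivial⟩, trivial⟩⟩⟩⟩ Ec11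

theorem Ev12 : Valid Et12 :=
  valid_of_check (env := Ee12) ⟨⟨⟨⟨⟨Ev0, trivial⟩, ⟨Ev8, trivial⟩⟩, ⟨⟨Ev4, trivial⟩, trivial⟩⟩, ⟨⟨⟨Ev2, trivial⟩, ⟨Ev10, trivial⟩⟩, ⟨⟨Ev6, trivial⟩, trivial⟩⟩⟩, ⟨⟨⟨⟨Ev1, trivial⟩, ⟨Ev9, trivial⟩⟩, ⟨⟨Ev5, trivial⟩, trivial⟩⟩, ⟨⟨⟨Ev3, trivial⟩, ⟨Ev11, trivial⟩⟩, ⟨⟨Ev7, trivial⟩, trivial⟩⟩⟩⟩ Ec12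

theorem Ev13 : Valid Et13 :=
  valid_of_check (env := Ee13) ⟨⟨⟨⟨⟨Ev0, trivial⟩, ⟨Ev8, trivial⟩⟩, ⟨⟨Ev4, trivial⟩, ⟨Ev12, trivial⟩⟩⟩, ⟨⟨⟨Ev2, trivial⟩, ⟨Ev10, trivial⟩⟩, ⟨⟨Ev6, trivial⟩, trivial⟩⟩⟩, ⟨⟨⟨⟨Ev1, trivial⟩, ⟨Ev9, trivial⟩⟩, ⟨⟨Ev5, trivial⟩, trivial⟩⟩, ⟨⟨⟨Ev3, trivial⟩, ⟨Ev11, trivial⟩⟩, ⟨⟨Ev7, trivial⟩, trivial⟩⟩⟩⟩ Ec13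

theorem Ev14 : Valid Et14 :=
  valid_of_check (env := Ee14) ⟨⟨⟨⟨⟨Ev0, trivial⟩, ⟨Ev8, trivial⟩⟩, ⟨⟨Ev4, trivial⟩, ⟨Ev12, trivial⟩⟩⟩, ⟨⟨⟨Ev2, trivial⟩, ⟨Ev10, trivial⟩⟩, ⟨⟨Ev6, trivial⟩, trivial⟩⟩⟩, ⟨⟨⟨⟨Ev1, trivial⟩, ⟨Ev9, trivial⟩⟩, ⟨⟨Ev5, trivial⟩, ⟨Ev13, trivial⟩⟩⟩, ⟨⟨⟨Ev3, trivial⟩, ⟨Ev11, trivial⟩⟩, ⟨⟨Ev7, trivial⟩, trivial⟩⟩⟩⟩ Ec14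

theorem Ev15 : Valid Et15 :=
  valid_of_check (env := Ee15) ⟨⟨⟨⟨⟨Ev0, trivial⟩, ⟨Ev8, trivial⟩⟩, ⟨⟨Ev4, trivial⟩, ⟨Ev12, trivial⟩⟩⟩, ⟨⟨⟨Ev2, trivial⟩, ⟨Ev10, trivial⟩⟩, ⟨⟨Ev6, trivial⟩, ⟨Ev14, trivial⟩⟩⟩⟩, ⟨⟨⟨⟨Ev1, trivial⟩, ⟨Ev9, trivial⟩⟩, ⟨⟨Ev5, trivial⟩, ⟨Ev13, trivial⟩⟩⟩, ⟨⟨⟨Ev3, trivial⟩, ⟨Ev11, trivial⟩⟩, ⟨⟨Ev7, trivial⟩, trivial⟩⟩⟩⟩ Ec15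

theorem Ev16 : Valid Et16 :=
  valid_of_check (env := Ee16) ⟨⟨⟨⟨⟨Ev0, trivial⟩, ⟨Ev8, trivial⟩⟩, ⟨⟨Ev4, trivial⟩, ⟨Ev12, trivial⟩⟩⟩, ⟨⟨⟨Ev2, trivial⟩, ⟨Ev10, trivial⟩⟩, ⟨⟨Ev6, trivial⟩, ⟨Ev14, trivial⟩⟩⟩⟩, ⟨⟨⟨⟨Ev1, trivial⟩, ⟨Ev9, trivial⟩⟩, ⟨⟨Ev5, trivial⟩, ⟨Ev13, trivial⟩⟩⟩, ⟨⟨⟨Ev3, trivial⟩, ⟨Ev11, trivial⟩⟩, ⟨⟨Ev7, trivial⟩, ⟨Ev15, trivial⟩⟩⟩⟩⟩ Ec16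

theorem Ev17 : Valid Et17 :=
  valid_of_check (env := Ee17) ⟨⟨⟨⟨⟨Ev0, Ev16⟩, ⟨Ev8, trivial⟩⟩, ⟨⟨Ev4, trivial⟩, ⟨Ev12, trivial⟩⟩⟩, ⟨⟨⟨Ev2, trivial⟩, ⟨Ev10, trivial⟩⟩, ⟨⟨Ev6, trivial⟩, ⟨Ev14, trivial⟩⟩⟩⟩, ⟨⟨⟨⟨Ev1, trivial⟩, ⟨Ev9, trivial⟩⟩, ⟨⟨Ev5, trivial⟩, ⟨Ev13, trivial⟩⟩⟩, ⟨⟨⟨Ev3, trivial⟩, ⟨Ev11, trivial⟩⟩, ⟨⟨Ev7, trivial⟩, ⟨Ev15, trivial⟩⟩⟩⟩⟩ Ec17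

theorem Ewin : Win (board 17) 21 ∅ ∅ :=
  win_of_card 17 Ev17 (by norm_num) (by decide +kernel)

end Vale.Agent.P062.Bd
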