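import Vale.Agent.P062.Comp

namespace Vale.Agent.P062

set_option maxRecDepth 100000 in
noncomputable def Et17 : Tab :=
 (Tab.leaf (nat_lit 21) (nat_lit 0) (nat_lit 0x1ffff00ffff807fffc03fffe01ffff00ffff807fffc03fffe01ffff00ffff807fffc03fffe01ffff00ffff807fffc03fffe01ffff) (nat_lit 0x1830d00000c000001dc0ced34025b96cd003234e3accf080339d916a5ab40270b68ed34027499e5003234e3accf080339d91ce67140270e880660d29820900a00d030500c00d030501dc0c0140ce9030500220c0a60d19030500688d030500288d820b00dc8d020300dc8d030500cc5d830f0000ad830f0034ad830d00cc5c000000bc0cbb2dd25b96cd003234e2e4b64803397516a5ab40270b68ea33827319a5003233a3b0cf080339d71d067140270e7805c0d29030501a00c000000004d030500004d030500000c0950d19030500200c000000a00c000000301d830d00004d820900004c0320d181d20cf9820900010d8209001cbd830d000acd820900050d8209000acd030500070d820900030c000000070d030700010d030700050d030700030d020300030d020300050d020300010d03050004fc000000030c00000004fd0305000acc000000050c0000000acd0305001cbc0000001cbc000000010d82090000ed830d0000ed02030008cd0203000ccd02030018cd03070008cc00000008cd830d0004cd82090004cd03050008cd03070000ec0000000ccd830d0014cd820b0004cd830d0018cd02030000ed830f0000ec00000018cd03050014cc00000014cd03050018cd820b0000ed82090008cd03050004cc00000004cd830d0008cd820b0008cd830f0018cd820b0018cd830f0008cc00000000ed03050000ecd0))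


end Vale.Agent.P062
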